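import Vale.Agent.P113.H982.Gron

/-!
Uniqueness of classical solutions of the Navier-Stokes equations on the torus.
-/

set_option autoImplicit false

namespace Vale.Agent.P113.H982

open MeasureTheory Set Filter Topology

/-- Continuity on `[0, T] × ℝ³`. -/
def ContOn (T : ℝ) (g : ℝ → E3 → ℝ) : Prop :=
  ContinuousOn (fun z : ℝ × E3 => g z.1 z.2) (Icc 0 T ×ˢ univ)

theorem ContOn.slice {T : ℝ} {g : ℝ → E3 → ℝ} (h : ContOn T g) {t : ℝ} (ht : t ∈ Icc 0 T) :
    Continuous (g t) := by
  rw [← continuousOn_univ]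
  have hm : MapsTo (fun x : E3 => (t, x)) univ (Icc 0 T ×ˢ univ) := fun x _ => ⟨ht, trivial⟩
  have h' : ContinuousOn (fun z : ℝ × E3 => g z.1 z.2) (Icc 0 T ×ˢ univ) := h
  exact h'.comp (by fun_prop) hm

/-- A classical solution `(u, p)` on `[0, T]` with force `f` and initial value zero, with its time
derivative `ut`, its spatial derivatives `Du i j = ∂_j u_i` and `D2u i j = ∂_j ∂_j u_i`, and the
gradient `Dp` of the pressure. -/
structure Sol (ν T : ℝ) (f u ut : Fin 3 → ℝ → E3 → ℝ) (Du D2u : Fin 3 → Fin 3 → ℝ → E3 → ℝ)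
    (p : ℝ → E3 → ℝ) (Dp : Fin 3 → ℝ → E3 → ℝ) : Prop where
  per : ∀ i, ∀ t ∈ Icc 0 T, Periodic3 (u i t)
  perp : ∀ t ∈ Icc 0 T, Periodic3 (p t)
  time : ∀ i, ∀ t ∈ Ioo 0 T, ∀ x, HasDerivAt (fun s => u i s x) (ut i t x) t
  space : ∀ i j, ∀ t ∈ Icc 0 T, HasPartial j (u i t) (Du i j t)
  space2 : ∀ i j, ∀ t ∈ Icc 0 T, HasPartial j (Du i j t) (D2u i j t)
  grad : ∀ j, ∀ t ∈ Icc 0 T, HasPartial j (p t) (Dp j t)
  cu : ∀ i, ContOn T (u i)
  cut : ∀ i, ContOn T (ut i)
  cDu : ∀ i j, ContOn T (Du i j)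
  cD2u : ∀ i j, ContOn T (D2u i j)
  cp : ContOn T p
  cDp : ∀ j, ContOn T (Dp j)
  eqn : ∀ i, ∀ t ∈ Icc 0 T, ∀ x, ut i t x + ∑ j, u j t x * Du i j t x =
    -Dp i t x + ν * (∑ j, D2u i j t x) + f i t x
  dvg : ∀ t ∈ Icc 0 T, ∀ x, ∑ i, Du i i t x = 0
  init : ∀ i x, u i 0 x = 0
  mean : ∀ t ∈ Icc 0 T, ∫ x in cell, p t x = 0

/-- the partial derivatives of a periodic function are periodic -/
theorem HasPartial.periodic {j : Fin 3} {g g' : E3 → ℝ} (h : HasPartial j g g')
    (hp : Periodic3 g) : Periodic3 g' := by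
  intro x i
  rcases eq_or_ne i j with rfl | hij
  · have h1 : HasDerivAt (fun s => g (Function.update x i (s + 1)))
        (g' (Function.update x i (x i + 1))) (x i) := by
      have := h.hasDerivAt x (x i + 1)
      exact this.comp_add_const (x i) 1
    have h2 : (fun s => g (Function.update x i (s + 1))) = fun s => g (Function.update x i s) := by
      funext s
      have := hp (Function.update x i s) i
      simpa using this
    rw [h2] at h1
    exact h1.unique (h x)
  · have h1 := h (Function.update x i (x i + 1))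
    have h2 : (fun s => g (Function.update (Function.update x i (x i + 1)) j s)) =
        fun s => g (Function.update x j s) := by
      funext s
      have := hp (Function.update x j s) i
      rw [Function.update_of_ne hij] at this
      rw [Function.update_comm hij]
      exact this
    rw [h2, Function.update_of_ne hij.symm] at h1
    exact h1.unique (h x)

/-- A function with vanishing partial derivatives is constant. -/
theorem const_of_partial {g : E3 → ℝ} (h : ∀ j, HasPartial j g fun _ => 0) (x y : E3) :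
    g x = g y := by
  have key : ∀ (j : Fin 3) (z : E3) (s t : ℝ),
      g (Function.update z j s) = g (Function.update z j t) := by
    intro j z s t
    exact is_const_of_deriv_eq_zero (fun r => ((h j).hasDerivAt z r).differentiableAt)
      (fun r => ((h j).hasDerivAt z r).deriv) s t
  have h0 := key 0 x (x 0) (y 0)
  have h1 := key 1 (Function.update x 0 (y 0)) (x 1) (y 1)
  have h2 := key 2 (Function.update (Function.update x 0 (y 0)) 1 (y 1)) (x 2) (y 2)
  have e1 : Function.update (Function.update x 0 (y 0)) 1 (x 1) = Function.update x 0 (y 0) := by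
    funext i
    fin_cases i <;> simp [Function.update]
  have e2 : Function.update (Function.update (Function.update x 0 (y 0)) 1 (y 1)) 2 (x 2) =
      Function.update (Function.update x 0 (y 0)) 1 (y 1) := by
    funext i
    fin_cases i <;> simp [Function.update]
  have e3 : Function.update (Function.update (Function.update x 0 (y 0)) 1 (y 1)) 2 (y 2) =
      y := by
    funext i
    fin_cases i <;> simp [Function.update]
  rw [Function.update_eq_self] at h0
  rw [h0, ← e1, h1, ← e2, h2, e3]

/-- Uniqueness of the velocity. -/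
theorem Sol.unique_vel {ν T : ℝ} (hν : 0 ≤ ν) {f u ut v vt : Fin 3 → ℝ → E3 → ℝ}
    {Du D2u Dv D2v : Fin 3 → Fin 3 → ℝ → E3 → ℝ} {p q : ℝ → E3 → ℝ}
    {Dp Dq : Fin 3 → ℝ → E3 → ℝ} (hu : Sol ν T f u ut Du D2u p Dp)
    (hv : Sol ν T f v vt Dv D2v q Dq) :
    ∀ t ∈ Icc 0 T, ∀ x, ∀ i, v i t x = u i t x := by
  obtain ⟨K, hK⟩ : ∃ K, ∀ i j, ∀ t ∈ Icc 0 T, ∀ x ∈ cell, |Du i j t x| ≤ K := by
    have hc : IsCompact (Icc 0 T ×ˢ cell) := isCompact_Icc.prod isCompact_Icc
    have h1 : ∀ i j, ∃ K, ∀ z ∈ Icc 0 T ×ˢ cell, ‖Du i j z.1 z.2‖ ≤ K := fun i j =>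
      hc.exists_bound_of_continuousOn ((hu.cDu i j).mono (prod_mono_right (subset_univ _)))
    choose K hK using h1
    refine ⟨∑ i, ∑ j, |K i j|, fun i j t ht x hx => (hK i j (t, x) ⟨ht, hx⟩).trans ?_⟩
    refine (le_abs_self _).trans ?_
    refine (Finset.single_le_sum (f := fun j => |K i j|) (fun j _ => abs_nonneg _)
      (Finset.mem_univ j)).trans ?_
    exact Finset.single_le_sum (f := fun i => ∑ j, |K i j|)
      (fun i _ => Finset.sum_nonneg fun j _ => abs_nonneg _) (Finset.mem_univ i)
  set w : Fin 3 → ℝ → E3 → ℝ := fun i t x => v i t x - u i t x with hw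
  set φ : ℝ → E3 → ℝ := fun t x => ∑ i, w i t x ^ 2 with hφ
  set φt : ℝ → E3 → ℝ := fun t x => ∑ i, 2 * (w i t x * (vt i t x - ut i t x)) with hφt
  have cw : ∀ i, ContOn T (w i) := fun i => (hv.cu i).sub (hu.cu i)
  have cφ : ContOn T φ := by
    have : ∀ i, ContOn T (fun t x => w i t x ^ 2) := fun i => (cw i).pow 2
    exact continuousOn_finsetSum _ fun i _ => this i
  have cφt : ContOn T φt := by
    have : ∀ i, ContOn T (fun t x => 2 * (w i t x * (vt i t x - ut i t x))) := fun i =>
      continuousOn_const.mul ((cw i).mul ((hv.cut i).sub (hu.cut i)))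
    exact continuousOn_finsetSum _ fun i _ => this i
  have hd : ∀ t ∈ Ioo 0 T, ∀ x, HasDerivAt (fun s => φ s x) (φt t x) t := by
    intro t ht x
    refine HasDerivAt.fun_sum fun i _ => ?_
    have h1 : HasDerivAt (fun s => w i s x) (vt i t x - ut i t x) t :=
      (hv.time i t ht x).sub (hu.time i t ht x)
    have h2 := h1.fun_pow 2
    refine h2.congr_deriv ?_
    simp
    ring
  have h0 : ∀ x, φ 0 x = 0 := fun x => by simp [hφ, hw, hu.init, hv.init]
  have hE : ∀ t ∈ Ioo 0 T, ∫ x in cell, φt t x ≤ (2 * (3 * K)) * ∫ x in cell, φ t x := by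
    intro t ht'
    have ht := Ioo_subset_Icc_self ht'
    have hineq := energy_ineq (ν := ν) (K := K) hν (w := fun i => w i t) (v := fun i => v i t)
      (Dw := fun i j x => Dv i j t x - Du i j t x)
      (D2w := fun i j x => D2v i j t x - D2u i j t x) (Du := fun i j => Du i j t)
      (Dv := fun i => Dv i i t) (Dπ := fun i x => Dq i t x - Dp i t x)
      (π := fun x => q t x - p t x)
      (fun i j => (hv.space i j t ht).sub (hu.space i j t ht))
      (fun i j => (hv.space2 i j t ht).sub (hu.space2 i j t ht))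
      (fun i => hv.space i i t ht) (fun i => (hv.grad i t ht).sub (hu.grad i t ht))
      (fun i => (cw i).slice ht)
      (fun i j => ((hv.cDu i j).slice ht).sub ((hu.cDu i j).slice ht))
      (fun i j => ((hv.cD2u i j).slice ht).sub ((hu.cD2u i j).slice ht))
      (fun i => (hv.cu i).slice ht) (fun i => (hv.cDu i i).slice ht)
      ((hv.cp.slice ht).sub (hu.cp.slice ht))
      (fun i => ((hv.cDp i).slice ht).sub ((hu.cDp i).slice ht))
      (fun i j => (hu.cDu i j).slice ht)
      (fun i => (hv.per i t ht).sub (hu.per i t ht))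
      (fun i j => ((hv.space i j t ht).periodic (hv.per i t ht)).sub
        ((hu.space i j t ht).periodic (hu.per i t ht)))
      (fun i => hv.per i t ht) ((hv.perp t ht).sub (hu.perp t ht))
      (fun x => by rw [Finset.sum_sub_distrib, hv.dvg t ht, hu.dvg t ht, sub_zero])
      (fun x => hv.dvg t ht x) (fun i j x hx => hK i j t ht x hx)
    have e1 : ∀ x, φt t x = 2 * ∑ i, w i t x * (ν * (∑ j, (D2v i j t x - D2u i j t x)) -
        (Dq i t x - Dp i t x) - (∑ j, v j t x * (Dv i j t x - Du i j t x)) -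
        ∑ j, w j t x * Du i j t x) := by
      intro x
      simp only [hφt, Finset.mul_sum (Finset.univ : Finset (Fin 3)) _ (2 : ℝ)]
      refine Finset.sum_congr rfl fun i _ => ?_
      have e2 := hv.eqn i t ht x
      have e3 := hu.eqn i t ht x
      congr 2
      simp only [Fin.sum_univ_three, hw] at e2 e3 ⊢
      linear_combination e2 - e3
    have e4 : ∫ x in cell, φt t x = 2 * ∫ x in cell, ∑ i, w i t x *
        (ν * (∑ j, (D2v i j t x - D2u i j t x)) - (Dq i t x - Dp i t x) -
          (∑ j, v j t x * (Dv i j t x - Du i j t x)) - ∑ j, w j t x * Du i j t x) := by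
      rw [← integral_const_mul]
      exact integral_congr_ae (ae_of_all _ e1)
    rw [e4, mul_assoc]
    exact mul_le_mul_of_nonneg_left hineq zero_le_two
  have h1 := energy_zero cφ cφt hd (fun t x => Finset.sum_nonneg fun i _ => sq_nonneg _) h0 hE
  intro t ht x i
  have pφ : Periodic3 (φ t) := by
    intro x j
    simp only [hφ, hw]
    refine Finset.sum_congr rfl fun i _ => ?_
    rw [hv.per i t ht x j, hu.per i t ht x j]
  have h2 := pφ.eq_zero (h1 t ht) x
  have h3 := (Finset.sum_eq_zero_iff_of_nonneg fun i _ => sq_nonneg _).1 h2 i (Finset.mem_univ i)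
  exact sub_eq_zero.1 (pow_eq_zero_iff two_ne_zero |>.1 h3)

/-- Uniqueness of classical solutions. -/
theorem Sol.unique {ν T : ℝ} (hν : 0 ≤ ν) (hT : 0 < T) {f u ut v vt : Fin 3 → ℝ → E3 → ℝ}
    {Du D2u Dv D2v : Fin 3 → Fin 3 → ℝ → E3 → ℝ} {p q : ℝ → E3 → ℝ}
    {Dp Dq : Fin 3 → ℝ → E3 → ℝ} (hu : Sol ν T f u ut Du D2u p Dp)
    (hv : Sol ν T f v vt Dv D2v q Dq) :
    ∀ t ∈ Icc 0 T, ∀ x, (∀ i, v i t x = u i t x) ∧ q t x = p t x := by
  have hvel := hu.unique_vel hν hv
  have hfun : ∀ t ∈ Icc 0 T, ∀ i, v i t = u i t := fun t ht i => funext fun x => hvel t ht x i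
  have hDu : ∀ t ∈ Icc 0 T, ∀ i j, Dv i j t = Du i j t := by
    intro t ht i j
    funext x
    have h1 := hv.space i j t ht x
    rw [hfun t ht i] at h1
    exact h1.unique (hu.space i j t ht x)
  have hD2u : ∀ t ∈ Icc 0 T, ∀ i j, D2v i j t = D2u i j t := by
    intro t ht i j
    funext x
    have h1 := hv.space2 i j t ht x
    rw [hDu t ht i j] at h1
    exact h1.unique (hu.space2 i j t ht x)
  have hpr : ∀ t ∈ Ioo 0 T, ∀ x, q t x - p t x = 0 := by
    intro t ht'
    have ht := Ioo_subset_Icc_self ht'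
    have hut : ∀ i x, vt i t x = ut i t x := by
      intro i x
      have h1 := hv.time i t ht' x
      have h2 : (fun s => v i s x) =ᶠ[𝓝 t] fun s => u i s x := by
        filter_upwards [isOpen_Ioo.mem_nhds ht'] with s hs
        exact hvel s (Ioo_subset_Icc_self hs) x i
      exact (h1.congr_of_eventuallyEq h2.symm).unique (hu.time i t ht' x)
    have hD : ∀ j x, Dq j t x - Dp j t x = 0 := by
      intro j x
      have e1 := hv.eqn j t ht x
      have e2 := hu.eqn j t ht x
      simp only [hut, hDu t ht, hD2u t ht, hfun t ht] at e1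
      linarith
    have hg : ∀ j, HasPartial j (fun x => q t x - p t x) fun _ => 0 := by
      intro j x
      exact ((hv.grad j t ht).sub (hu.grad j t ht) x).congr_deriv (hD j x)
    intro x
    have h1 : ∀ y, q t y - p t y = q t x - p t x := fun y => const_of_partial hg y x
    have h2 : ∫ y in cell, (q t y - p t y) = 0 := by
      rw [integral_sub (integrableOn_cell (hv.cp.slice ht)) (integrableOn_cell (hu.cp.slice ht)),
        hv.mean t ht, hu.mean t ht, sub_zero]
    simp only [h1] at h2
    rw [setIntegral_const] at h2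
    have h3 : (volume : Measure E3).real cell = 1 := by
      rw [measureReal_def, Real.volume_Icc_pi]
      simp
    rw [h3, one_smul] at h2
    exact h2
  intro t ht x
  refine ⟨hvel t ht x, ?_⟩
  have hc : ContinuousOn (fun s => q s x - p s x) (Icc 0 T) := by
    have hm : MapsTo (fun s : ℝ => (s, x)) (Icc 0 T) (Icc 0 T ×ˢ univ) :=
      fun s hs => ⟨hs, trivial⟩
    have h1 : ContinuousOn (fun z : ℝ × E3 => q z.1 z.2) (Icc 0 T ×ˢ univ) := hv.cp
    have h2 : ContinuousOn (fun z : ℝ × E3 => p z.1 z.2) (Icc 0 T ×ˢ univ) := hu.cp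
    exact (h1.sub h2).comp (by fun_prop) hm
  have h1 : EqOn (fun s => q s x - p s x) (fun _ => 0) (closure (Ioo 0 T)) := by
    refine EqOn.of_subset_closure (s := Ioo 0 T) (fun s hs => hpr s hs x) ?_ continuousOn_const
      subset_closure subset_rfl
    rwa [closure_Ioo hT.ne]
  rw [closure_Ioo hT.ne] at h1
  exact sub_eq_zero.1 (h1 ht)

end Vale.Agent.P113.H982
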