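import Vale.Agent.P113.Defs
import Vale.Agent.P113.H982.Uniq

/-!
Uniqueness of classical solutions, for the definitions of the statement.
-/

set_option autoImplicit false

namespace Vale.Agent.P113.H982

open MeasureTheory Set Filter Topology

theorem Periodic3.of_isPeriodic {g : E3 → ℝ} (h : IsPeriodic g) : Periodic3 g := by
  intro x j
  have := h x (Pi.single j 1)
  rw [← this]
  congr 1
  funext i
  rcases eq_or_ne i j with rfl | hij
  · simp
  · simp [hij]

theorem ContOn.comp_apply {T : ℝ} {I : Set ℝ} (hI : Icc 0 T ⊆ I) {g : ℝ → E3 → E3}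
    (h : ContinuousOn (fun y : ℝ × E3 => g y.1 y.2) (I ×ˢ univ)) (i : Fin 3) :
    ContOn T fun t x => g t x i := by
  have h1 := h.mono (prod_mono_left (t := (univ : Set E3)) hI)
  exact (continuous_apply i).comp_continuousOn h1

theorem exists_sol {ν T : ℝ} {I : Set ℝ} (hI : Icc 0 T ⊆ I)
    {f u : ℝ → E3 → E3} {p : ℝ → E3 → ℝ} (h : IsClassicalSolution ν f I u p) :
    ∃ ut Du D2u Dp, Sol ν T (fun i t x => f t x i) (fun i t x => u t x i) ut Du D2u p Dp := by
  obtain ⟨ut, Du, DDu, Dp, h1, h2, h3, h4, h5, h6, h7, h8, h9, h10⟩ := h.eqs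
  refine ⟨fun i t x => ut t x i, fun i j t x => Du j t x i, fun i j t x => DDu j j t x i,
    fun i t x => Dp i t x, ?_⟩
  refine ⟨?_, ?_, ?_, ?_, ?_, ?_, ?_, ?_, ?_, ?_, ?_, ?_, ?_, ?_, ?_, ?_⟩
  · intro i t ht
    refine Periodic3.of_isPeriodic fun x k => ?_
    rw [h.periodic_u t (hI ht) x k]
  · exact fun t ht => Periodic3.of_isPeriodic (h.periodic_p t (hI ht))
  · intro i t ht x
    refine (h5 t (hI (Ioo_subset_Icc_self ht)) x i).hasDerivAt ?_
    exact mem_of_superset (Icc_mem_nhds ht.1 ht.2) hI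
  · exact fun i j t ht x => h6 t (hI ht) x j i
  · exact fun i j t ht x => h7 t (hI ht) x j j i
  · exact fun j t ht x => h8 t (hI ht) x j
  · exact fun i => ContOn.comp_apply hI h.cont_u i
  · exact fun i => ContOn.comp_apply hI h1 i
  · exact fun i j => ContOn.comp_apply hI (h2 j) i
  · exact fun i j => ContOn.comp_apply hI (h3 j j) i
  · exact h.cont_p.mono (prod_mono_left hI)
  · exact fun j => (h4 j).mono (prod_mono_left hI)
  · exact fun i t ht x => h9 t (hI ht) x i
  · exact fun t ht x => h10 t (hI ht) x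
  · exact fun i x => by simp [h.initial x]
  · exact fun t ht => h.mean_zero t (hI ht)

/-- (c) Uniqueness of classical solutions on each `[0, T]`. -/
theorem unique_classical {ν : ℝ} (hν : 0 ≤ ν) {f u : ℝ → E3 → E3} {p : ℝ → E3 → ℝ}
    (hu : IsClassicalSolution ν f (Ici 0) u p) :
    ∀ T : ℝ, 0 < T → ∀ v π, IsClassicalSolution ν f (Icc 0 T) v π →
      ∀ t ∈ Icc 0 T, ∀ x, v t x = u t x ∧ π t x = p t x := by
  intro T hT v π hv t ht x
  obtain ⟨ut, Du, D2u, Dp, h1⟩ := exists_sol (T := T) (fun s hs => hs.1) hu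
  obtain ⟨vt, Dv, D2v, Dπ, h2⟩ := exists_sol (T := T) subset_rfl hv
  obtain ⟨h3, h4⟩ := h1.unique hν hT h2 t ht x
  exact ⟨funext h3, h4⟩

end Vale.Agent.P113.H982
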