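import Vale.Agent.P113.H982.Parts

/-!
The energy inequality at a fixed time, and the vanishing of the energy.
-/

set_option autoImplicit false

namespace Vale.Agent.P113.H982

open MeasureTheory Set Filter Topology

theorem HasPartial.add {j : Fin 3} {f f' g g' : E3 → ℝ} (hf : HasPartial j f f')
    (hg : HasPartial j g g') : HasPartial j (fun x => f x + g x) (fun x => f' x + g' x) :=
  fun x => (hf x).add (hg x)

theorem HasPartial.sub {j : Fin 3} {f f' g g' : E3 → ℝ} (hf : HasPartial j f f')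
    (hg : HasPartial j g g') : HasPartial j (fun x => f x - g x) (fun x => f' x - g' x) :=
  fun x => (hf x).sub (hg x)

theorem HasPartial.mul {j : Fin 3} {f f' g g' : E3 → ℝ} (hf : HasPartial j f f')
    (hg : HasPartial j g g') :
    HasPartial j (fun x => f x * g x) (fun x => f' x * g x + f x * g' x) := by
  intro x
  have h : HasDerivAt (fun s => f (Function.update x j s) * g (Function.update x j s)) _ (x j) :=
    (hf x).mul (hg x)
  simpa only [Function.update_eq_self] using h

theorem HasPartial.const_mul {j : Fin 3} {f f' : E3 → ℝ} (c : ℝ) (hf : HasPartial j f f') :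
    HasPartial j (fun x => c * f x) (fun x => c * f' x) :=
  fun x => (hf x).const_mul c

theorem Periodic3.add {f g : E3 → ℝ} (hf : Periodic3 f) (hg : Periodic3 g) :
    Periodic3 fun x => f x + g x := fun x j => by simp only [hf x j, hg x j]

theorem Periodic3.sub {f g : E3 → ℝ} (hf : Periodic3 f) (hg : Periodic3 g) :
    Periodic3 fun x => f x - g x := fun x j => by simp only [hf x j, hg x j]

theorem Periodic3.mul {f g : E3 → ℝ} (hf : Periodic3 f) (hg : Periodic3 g) :
    Periodic3 fun x => f x * g x := fun x j => by simp only [hf x j, hg x j]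

theorem Periodic3.const_mul {f : E3 → ℝ} (c : ℝ) (hf : Periodic3 f) :
    Periodic3 fun x => c * f x := fun x j => by simp only [hf x j]

/-- The energy inequality at a fixed time. `w` is the difference of the velocities, `π` that of
the pressures, `v` the second velocity, and `Du i j` is `∂_j u_i` for the first velocity `u`. -/
theorem energy_ineq {ν K : ℝ} (hν : 0 ≤ ν)
    {w v : Fin 3 → E3 → ℝ} {Dw D2w Du : Fin 3 → Fin 3 → E3 → ℝ} {Dv Dπ : Fin 3 → E3 → ℝ}
    {π : E3 → ℝ}
    (hw : ∀ i j, HasPartial j (w i) (Dw i j)) (hDw : ∀ i j, HasPartial j (Dw i j) (D2w i j))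
    (hv : ∀ i, HasPartial i (v i) (Dv i)) (hπ : ∀ i, HasPartial i π (Dπ i))
    (cw : ∀ i, Continuous (w i)) (cDw : ∀ i j, Continuous (Dw i j))
    (cD2w : ∀ i j, Continuous (D2w i j)) (cv : ∀ i, Continuous (v i))
    (cDv : ∀ i, Continuous (Dv i)) (cπ : Continuous π) (cDπ : ∀ i, Continuous (Dπ i))
    (cDu : ∀ i j, Continuous (Du i j))
    (pw : ∀ i, Periodic3 (w i)) (pDw : ∀ i j, Periodic3 (Dw i j)) (pv : ∀ i, Periodic3 (v i))
    (pπ : Periodic3 π)
    (dw : ∀ x, ∑ i, Dw i i x = 0) (dv : ∀ x, ∑ i, Dv i x = 0)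
    (hK : ∀ i j, ∀ x ∈ cell, |Du i j x| ≤ K) :
    ∫ x in cell, ∑ i, w i x * (ν * (∑ j, D2w i j x) - Dπ i x - (∑ j, v j x * Dw i j x) -
      ∑ j, w j x * Du i j x) ≤ 3 * K * ∫ x in cell, ∑ i, w i x ^ 2 := by
  -- the fluxes
  set g : Fin 3 → E3 → ℝ := fun j x =>
    ν * (w 0 x * Dw 0 j x + w 1 x * Dw 1 j x + w 2 x * Dw 2 j x) - w j x * π x -
      (1 / 2) * (v j x * (w 0 x * w 0 x + w 1 x * w 1 x + w 2 x * w 2 x)) with hg
  set g' : Fin 3 → E3 → ℝ := fun j x =>
    ν * ((Dw 0 j x * Dw 0 j x + w 0 x * D2w 0 j x) + (Dw 1 j x * Dw 1 j x + w 1 x * D2w 1 j x) +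
      (Dw 2 j x * Dw 2 j x + w 2 x * D2w 2 j x)) - (Dw j j x * π x + w j x * Dπ j x) -
      (1 / 2) * (Dv j x * (w 0 x * w 0 x + w 1 x * w 1 x + w 2 x * w 2 x) +
        v j x * ((Dw 0 j x * w 0 x + w 0 x * Dw 0 j x) + (Dw 1 j x * w 1 x + w 1 x * Dw 1 j x) +
          (Dw 2 j x * w 2 x + w 2 x * Dw 2 j x))) with hg'
  have h1 : ∀ j, HasPartial j (g j) (g' j) := fun j =>
    ((((((hw 0 j).mul (hDw 0 j)).add ((hw 1 j).mul (hDw 1 j))).add
      ((hw 2 j).mul (hDw 2 j))).const_mul ν).sub ((hw j j).mul (hπ j))).sub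
      (((hv j).mul ((((hw 0 j).mul (hw 0 j)).add ((hw 1 j).mul (hw 1 j))).add
        ((hw 2 j).mul (hw 2 j)))).const_mul (1 / 2))
  have h2 : ∀ j, Periodic3 (g j) := fun j =>
    (((((((pw 0).mul (pDw 0 j)).add ((pw 1).mul (pDw 1 j))).add
      ((pw 2).mul (pDw 2 j))).const_mul ν).sub ((pw j).mul pπ)).sub
      (((pv j).mul ((((pw 0).mul (pw 0)).add ((pw 1).mul (pw 1))).add
        ((pw 2).mul (pw 2)))).const_mul (1 / 2)))
  have h3 : ∀ j, Continuous (g' j) := by
    intro j
    have := cw 0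
    have := cw 1
    have := cw 2
    have := cw j
    have := cDw 0 j
    have := cDw 1 j
    have := cDw 2 j
    have := cDw j j
    have := cD2w 0 j
    have := cD2w 1 j
    have := cD2w 2 j
    have := cv j
    have := cDv j
    have := cDπ j
    simp only [hg']
    fun_prop
  have h4 : ∀ j, ∫ x in cell, g' j x = 0 := fun j => integral_partial j (h1 j) (h3 j) (h2 j)
  have h5 : ∫ x in cell, (g' 0 x + g' 1 x + g' 2 x) = 0 := by
    have c01 : Continuous fun x => g' 0 x + g' 1 x := (h3 0).add (h3 1)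
    rw [integral_add (integrableOn_cell c01) (integrableOn_cell (h3 2)),
      integral_add (integrableOn_cell (h3 0)) (integrableOn_cell (h3 1)), h4, h4, h4]
    simp
  have c012 : Continuous fun x => g' 0 x + g' 1 x + g' 2 x := ((h3 0).add (h3 1)).add (h3 2)
  have cL : Continuous fun x => ∑ i, w i x * (ν * (∑ j, D2w i j x) - Dπ i x -
      (∑ j, v j x * Dw i j x) - ∑ j, w j x * Du i j x) := by
    refine continuous_finsetSum _ fun i _ => (cw i).mul ?_
    refine (((continuous_const.mul (continuous_finsetSum _ fun j _ => cD2w i j)).sub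
      (cDπ i)).sub (continuous_finsetSum _ fun j _ => (cv j).mul (cDw i j))).sub
      (continuous_finsetSum _ fun j _ => (cw j).mul (cDu i j))
  have cS : Continuous fun x => ∑ i, w i x ^ 2 :=
    continuous_finsetSum _ fun i _ => (cw i).pow 2
  rw [← integral_const_mul]
  have h6 : ∫ x in cell, ((∑ i, w i x * (ν * (∑ j, D2w i j x) - Dπ i x -
      (∑ j, v j x * Dw i j x) - ∑ j, w j x * Du i j x)) - (g' 0 x + g' 1 x + g' 2 x)) ≤
      ∫ x in cell, 3 * K * ∑ i, w i x ^ 2 := by
    refine setIntegral_mono_on (integrableOn_cell (cL.sub c012))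
      (integrableOn_cell (continuous_const.mul cS)) measurableSet_Icc fun x hx => ?_
    have hdw := dw x
    have hdv := dv x
    simp only [Fin.sum_univ_three] at hdw hdv
    have e1 : (∑ i, w i x * (ν * (∑ j, D2w i j x) - Dπ i x -
      (∑ j, v j x * Dw i j x) - ∑ j, w j x * Du i j x)) - (g' 0 x + g' 1 x + g' 2 x) =
        -(ν * ∑ i, ∑ j, Dw i j x ^ 2) - (∑ i, ∑ j, w i x * w j x * Du i j x) := by
      simp only [hg', Fin.sum_univ_three]
      linear_combination π x * hdw +
        (1 / 2) * (w 0 x * w 0 x + w 1 x * w 1 x + w 2 x * w 2 x) * hdv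
    rw [e1]
    have e2 : 0 ≤ ν * ∑ i, ∑ j, Dw i j x ^ 2 :=
      mul_nonneg hν (Finset.sum_nonneg fun i _ => Finset.sum_nonneg fun j _ => sq_nonneg _)
    have e3 : ∀ i j, -(w i x * w j x * Du i j x) ≤ K * ((w i x ^ 2 + w j x ^ 2) / 2) := by
      intro i j
      have h7 := hK i j x hx
      have h8 : |w i x * w j x| ≤ (w i x ^ 2 + w j x ^ 2) / 2 := by
        rw [abs_le]
        constructor <;> nlinarith [sq_nonneg (w i x + w j x), sq_nonneg (w i x - w j x)]
      have h9 : 0 ≤ K := (abs_nonneg _).trans h7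
      calc -(w i x * w j x * Du i j x) ≤ |w i x * w j x * Du i j x| := neg_le_abs _
        _ = |w i x * w j x| * |Du i j x| := abs_mul _ _
        _ ≤ ((w i x ^ 2 + w j x ^ 2) / 2) * K := by
          refine mul_le_mul h8 h7 (abs_nonneg _) ?_
          positivity
        _ = K * ((w i x ^ 2 + w j x ^ 2) / 2) := by ring
    have e4 : -(∑ i, ∑ j, w i x * w j x * Du i j x) ≤ 3 * K * ∑ i, w i x ^ 2 := by
      rw [← Finset.sum_neg_distrib]
      simp only [← Finset.sum_neg_distrib]
      refine (Finset.sum_le_sum fun i _ => Finset.sum_le_sum fun j _ => e3 i j).trans ?_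
      simp only [Fin.sum_univ_three]
      nlinarith
    linarith
  rw [integral_sub (integrableOn_cell cL) (integrableOn_cell c012),
    h5, sub_zero] at h6
  exact h6

end Vale.Agent.P113.H982
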