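import Vale.Agent.P113.H982.Energy

/-!
A nonnegative energy density with vanishing initial value and `E' ≤ C E` vanishes.
-/

set_option autoImplicit false

namespace Vale.Agent.P113.H982

open MeasureTheory Set Filter Topology

/-- a continuous nonnegative periodic function whose integral over the cell vanishes is zero -/
theorem eq_zero_of_integral_cell {φ : E3 → ℝ} (hc : Continuous φ) (h0 : ∀ x, 0 ≤ φ x)
    (hi : ∫ x in cell, φ x = 0) : ∀ x ∈ cell, φ x = 0 := by
  have h1 : φ =ᵐ[volume.restrict cell] 0 :=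
    (setIntegral_eq_zero_iff_of_nonneg_ae (ae_of_all _ h0) (integrableOn_cell hc)).1 hi
  refine Measure.eqOn_of_ae_eq h1 hc.continuousOn continuousOn_const ?_
  have h2 : (interior cell).Nonempty := by
    refine ⟨fun _ => 1 / 2, ?_⟩
    rw [mem_interior_iff_mem_nhds]
    have : (Set.pi univ fun _ : Fin 3 => Ioo (0 : ℝ) 1) ∈ 𝓝 (fun _ => (1 / 2 : ℝ) : E3) :=
      (isOpen_set_pi finite_univ fun _ _ => isOpen_Ioo).mem_nhds fun _ _ => by norm_num
    refine mem_of_superset this fun x hx => ?_
    exact ⟨fun i => (hx i trivial).1.le, fun i => (hx i trivial).2.le⟩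
  rw [(convex_Icc (𝕜 := ℝ) (0 : E3) 1).closure_interior_eq_closure_of_nonempty_interior h2]
  exact subset_closure

/-- Every point can be moved into the cell. -/
theorem Periodic3.add_int {g : E3 → ℝ} (h : Periodic3 g) (j : Fin 3) (n : ℤ) (x : E3) :
    g (Function.update x j (x j + n)) = g x := by
  induction n using Int.induction_on with
  | zero => simp
  | succ n ih =>
    have := h (Function.update x j (x j + n)) j
    simp only [Function.update_self, Function.update_idem] at this
    push_cast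
    rw [← add_assoc, this]
    exact_mod_cast ih
  | pred n ih =>
    have := h (Function.update x j (x j + (-n - 1 : ℤ))) j
    simp only [Function.update_self, Function.update_idem] at this
    rw [← this]
    convert ih using 3
    push_cast
    ring

theorem Periodic3.exists_cell {g : E3 → ℝ} (h : Periodic3 g) (x : E3) :
    ∃ y ∈ cell, g y = g x := by
  refine ⟨fun i => Int.fract (x i), ⟨fun i => Int.fract_nonneg _, fun i =>
    (Int.fract_lt_one _).le⟩, ?_⟩
  have h0 := h.add_int 0 (-⌊x 0⌋) x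
  have h1 := h.add_int 1 (-⌊x 1⌋) (Function.update x 0 (x 0 + (-⌊x 0⌋ : ℤ)))
  have h2 := h.add_int 2 (-⌊x 2⌋) (Function.update (Function.update x 0 (x 0 + (-⌊x 0⌋ : ℤ))) 1
    (Function.update x 0 (x 0 + (-⌊x 0⌋ : ℤ)) 1 + (-⌊x 1⌋ : ℤ)))
  rw [← h0, ← h1, ← h2]
  congr 1
  funext i
  fin_cases i <;> simp [Function.update, Int.fract, sub_eq_add_neg]

theorem Periodic3.eq_zero {g : E3 → ℝ} (h : Periodic3 g) (h0 : ∀ x ∈ cell, g x = 0) (x : E3) :
    g x = 0 := by
  obtain ⟨y, hy, e⟩ := h.exists_cell x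
  rw [← e, h0 y hy]

/-- The energy argument in time. -/
theorem energy_zero {T C : ℝ} {φ φt : ℝ → E3 → ℝ}
    (cφ : ContinuousOn (fun z : ℝ × E3 => φ z.1 z.2) (Icc 0 T ×ˢ univ))
    (cφt : ContinuousOn (fun z : ℝ × E3 => φt z.1 z.2) (Icc 0 T ×ˢ univ))
    (hd : ∀ t ∈ Ioo 0 T, ∀ x, HasDerivAt (fun s => φ s x) (φt t x) t)
    (hpos : ∀ t x, 0 ≤ φ t x) (h0 : ∀ x, φ 0 x = 0)
    (hE : ∀ t ∈ Ioo 0 T, ∫ x in cell, φt t x ≤ C * ∫ x in cell, φ t x) :
    ∀ t ∈ Icc 0 T, ∀ x ∈ cell, φ t x = 0 := by
  intro t ht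
  have hT : 0 ≤ T := ht.1.trans ht.2
  -- continuity of the slices
  have cs : ∀ s ∈ Icc 0 T, Continuous (φ s) := by
    intro s hs
    rw [← continuousOn_univ]
    have hm : MapsTo (fun x : E3 => (s, x)) univ (Icc 0 T ×ˢ univ) := fun x _ => ⟨hs, trivial⟩
    exact cφ.comp (by fun_prop) hm
  have cst : ∀ s ∈ Icc 0 T, Continuous (φt s) := by
    intro s hs
    rw [← continuousOn_univ]
    have hm : MapsTo (fun x : E3 => (s, x)) univ (Icc 0 T ×ˢ univ) := fun x _ => ⟨hs, trivial⟩
    exact cφt.comp (by fun_prop) hm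
  -- bounds
  have hK : IsCompact (Icc 0 T ×ˢ cell) := isCompact_Icc.prod isCompact_Icc
  obtain ⟨M, hM⟩ := hK.exists_bound_of_continuousOn
    (cφ.mono (prod_mono_right (subset_univ _)))
  obtain ⟨N, hN⟩ := hK.exists_bound_of_continuousOn
    (cφt.mono (prod_mono_right (subset_univ _)))
  set E : ℝ → ℝ := fun s => ∫ x in cell, φ s x with hEdef
  have hEc : ContinuousOn E (Icc 0 T) := by
    refine continuousOn_of_dominated (bound := fun _ => M) ?_ ?_ ?_ ?_
    · intro s hs
      exact (cs s hs).aestronglyMeasurable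
    · intro s hs
      filter_upwards [ae_restrict_mem measurableSet_Icc] with x hx
      exact hM (s, x) ⟨hs, hx⟩
    · exact (continuous_const.integrableOn_Icc : IntegrableOn (fun _ : E3 => M) (Icc 0 1))
    · refine ae_of_all _ fun x => ?_
      have hm : MapsTo (fun s : ℝ => (s, x)) (Icc 0 T) (Icc 0 T ×ˢ univ) :=
        fun s hs => ⟨hs, trivial⟩
      exact cφ.comp (by fun_prop) hm
  have hEd : ∀ s ∈ Ioo 0 T, HasDerivAt E (∫ x in cell, φt s x) s := by
    intro s hs
    refine (hasDerivAt_integral_of_dominated_loc_of_deriv_le (F := φ) (F' := φt)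
      (s := Ioo 0 T) (bound := fun _ => N) (isOpen_Ioo.mem_nhds hs) ?_ ?_ ?_ ?_ ?_ ?_).2
    · filter_upwards [isOpen_Ioo.mem_nhds hs] with r hr
      exact (cs r (Ioo_subset_Icc_self hr)).aestronglyMeasurable
    · exact integrableOn_cell (cs s (Ioo_subset_Icc_self hs))
    · exact (cst s (Ioo_subset_Icc_self hs)).aestronglyMeasurable
    · filter_upwards [ae_restrict_mem measurableSet_Icc] with x hx r hr
      exact hN (r, x) ⟨Ioo_subset_Icc_self hr, hx⟩
    · exact (continuous_const.integrableOn_Icc : IntegrableOn (fun _ : E3 => N) (Icc 0 1))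
    · exact ae_of_all _ fun x r hr => hd r hr x
  set G : ℝ → ℝ := fun s => Real.exp (-C * s) * E s with hG
  have hGd : ∀ s ∈ Ioo 0 T, HasDerivAt G
      (Real.exp (-C * s) * -C * E s + Real.exp (-C * s) * ∫ x in cell, φt s x) s := by
    intro s hs
    have h1 : HasDerivAt (fun s => Real.exp (-C * s)) (Real.exp (-C * s) * -C) s := by
      have := ((hasDerivAt_id s).const_mul (-C)).exp
      simpa using this
    exact h1.mul (hEd s hs)
  have hanti : AntitoneOn G (Icc 0 T) := by
    refine antitoneOn_of_deriv_nonpos (convex_Icc 0 T) ?_ ?_ ?_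
    · exact (by fun_prop : Continuous fun s => Real.exp (-C * s)).continuousOn.mul hEc
    · rw [interior_Icc]
      exact fun s hs => (hGd s hs).differentiableAt.differentiableWithinAt
    · rw [interior_Icc]
      intro s hs
      rw [(hGd s hs).deriv]
      have h1 := hE s hs
      have h2 := Real.exp_pos (-C * s)
      have : Real.exp (-C * s) * -C * E s + Real.exp (-C * s) * ∫ x in cell, φt s x =
        Real.exp (-C * s) * ((∫ x in cell, φt s x) - C * E s) := by ring
      rw [this]
      exact mul_nonpos_of_nonneg_of_nonpos h2.le (by linarith)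
  have hG0 : G 0 = 0 := by
    simp [hG, hEdef, h0]
  have h1 := hanti ⟨le_rfl, hT⟩ ht ht.1
  rw [hG0] at h1
  have h2 : E t ≤ 0 := by
    have h3 := Real.exp_pos (-C * t)
    by_contra h4
    push Not at h4
    exact absurd (mul_pos h3 h4) (not_lt.2 h1)
  have h3 : 0 ≤ E t := integral_nonneg fun x => hpos t x
  exact eq_zero_of_integral_cell (cs t ht) (hpos t) (le_antisymm h2 h3)

end Vale.Agent.P113.H982
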