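import Mathlib

/-!
Integration over the period cell: the integral of a partial derivative of a periodic function
vanishes.
-/

set_option autoImplicit false

namespace Vale.Agent.P113.H982

open MeasureTheory Set Filter Topology

/-- The space. -/
abbrev E3 := Fin 3 → ℝ

/-- `g'` is the partial derivative of `g` in the direction `j`. -/
def HasPartial (j : Fin 3) (g g' : E3 → ℝ) : Prop :=
  ∀ x, HasDerivAt (fun s => g (Function.update x j s)) (g' x) (x j)

/-- `g` is `1`-periodic in each variable. -/
def Periodic3 (g : E3 → ℝ) : Prop := ∀ x j, g (Function.update x j (x j + 1)) = g x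

/-- the period cell -/
abbrev cell : Set E3 := Icc 0 1

theorem HasPartial.hasDerivAt {j : Fin 3} {g g' : E3 → ℝ} (h : HasPartial j g g') (x : E3)
    (s : ℝ) : HasDerivAt (fun s => g (Function.update x j s)) (g' (Function.update x j s)) s := by
  have := h (Function.update x j s)
  simpa using this

theorem integrableOn_cell {g : E3 → ℝ} (hg : Continuous g) : IntegrableOn g cell :=
  hg.continuousOn.integrableOn_compact isCompact_Icc

/-- Integration over the cell, first in the direction `j`. -/
theorem integral_cell (j : Fin 3) {g : E3 → ℝ} (hg : Continuous g) :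
    ∫ x in cell, g x = ∫ y in Icc (0 : Fin 2 → ℝ) 1, ∫ s in Icc (0 : ℝ) 1,
      g (j.insertNth s y) := by
  set e : ℝ × (Fin 2 → ℝ) ≃ᵐ E3 := (MeasurableEquiv.piFinSuccAbove (fun _ => ℝ) j).symm
  have hem : MeasurePreserving e :=
    (volume_preserving_piFinSuccAbove (fun _ : Fin (2 + 1) => ℝ) j).symm _
  have heπ : (e ⁻¹' Icc 0 1) = Icc (0 : ℝ) 1 ×ˢ Icc (0 : Fin 2 → ℝ) 1 :=
    ((Fin.insertNthOrderIso (fun _ => ℝ) j).preimage_Icc _ _).trans (Icc_prod_eq _ _)
  have hi : IntegrableOn (fun z : ℝ × (Fin 2 → ℝ) => g (e z))
      (Icc (0 : ℝ) 1 ×ˢ Icc (0 : Fin 2 → ℝ) 1) := by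
    have := integrableOn_cell hg
    rwa [← hem.integrableOn_comp_preimage e.measurableEmbedding, heπ] at this
  rw [← hem.map_eq, setIntegral_map_equiv, heπ, Measure.volume_eq_prod]
  rw [Measure.volume_eq_prod] at hi
  rw [← Measure.prod_restrict]
  rw [IntegrableOn, ← Measure.prod_restrict] at hi
  rw [integral_prod_symm _ hi]
  rfl

theorem update_insertNth (j : Fin 3) (s t : ℝ) (y : Fin 2 → ℝ) :
    Function.update (j.insertNth s y : E3) j t = j.insertNth t y :=
  Fin.update_insertNth _ _ _ _

/-- The integral of a partial derivative of a periodic function vanishes. -/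
theorem integral_partial (j : Fin 3) {g g' : E3 → ℝ} (h : HasPartial j g g')
    (hg' : Continuous g') (hper : Periodic3 g) : ∫ x in cell, g' x = 0 := by
  rw [integral_cell j hg']
  have key : ∀ y : Fin 2 → ℝ, ∫ s in Icc (0 : ℝ) 1, g' (j.insertNth s y) = 0 := by
    intro y
    have h1 : ∀ s : ℝ, HasDerivAt (fun s => g (j.insertNth s y)) (g' (j.insertNth s y)) s := by
      intro s
      have := h.hasDerivAt (j.insertNth (0 : ℝ) y) s
      simpa only [update_insertNth] using this
    have hc : Continuous fun s : ℝ => g' (j.insertNth s y) := by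
      refine hg'.comp ?_
      exact Continuous.finInsertNth j continuous_id continuous_const
    rw [integral_Icc_eq_integral_Ioc, ← intervalIntegral.integral_of_le zero_le_one,
      intervalIntegral.integral_eq_sub_of_hasDerivAt (fun s _ => h1 s)
        (hc.intervalIntegrable _ _)]
    have := hper (j.insertNth (0 : ℝ) y) j
    rw [update_insertNth, Fin.insertNth_apply_same, zero_add] at this
    rw [this, sub_self]
  simp only [key, integral_zero]

end Vale.Agent.P113.H982
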