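import Vale.Agent.P113.Defs
import Vale.Agent.P113.H280.Rho
import Vale.Agent.P113.H854.Per

/-!
Admissible forces are smooth and periodic.
-/

set_option autoImplicit false

namespace Vale.Agent.P113.H982

open MeasureTheory Set Filter Topology
open scoped ContDiff

theorem iteratedDeriv_rho_smooth (j : ℕ) : ContDiff ℝ ∞ (iteratedDeriv j Vale.Agent.P113.rho) :=
  H280.iteratedDeriv_rho_contDiff j

theorem plateau_smooth (l : ℝ) : ContDiff ℝ ∞ (plateau l) := H280.plat_contDiff l

/-- The profile of a bump. -/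
theorem bump_prof (g : Bump) (hg : g.Valid) : ∃ (P : ℝ → ℝ) (R : ℝ), ContDiff ℝ ∞ P ∧
    (∀ s, R ≤ |s| → P s = 0) ∧ ∀ s, g.fn s = s ^ g.k * P (ratVal g.a * s - ratVal g.b) := by
  rcases hk : g.kind with j | l
  · refine ⟨iteratedDeriv j rho, 1, iteratedDeriv_rho_smooth j,
      fun s hs => H280.iteratedDeriv_rho_zero j hs, fun s => ?_⟩
    unfold Bump.fn
    rw [hk]
    rfl
  · have hl : (0 : ℝ) < ratVal l := by exact_mod_cast hg.2 l hk
    refine ⟨plateau (ratVal l), ratVal l + 1, plateau_smooth _, fun s hs => ?_, fun s => ?_⟩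
    · rcases le_total 0 s with h | h
      · rw [abs_of_nonneg h] at hs
        exact H280.plat_eq_zero_right hl.le hs
      · rw [abs_of_nonpos h] at hs
        exact H280.plat_eq_zero_left hl.le (by linarith)
    · unfold Bump.fn
      rw [hk]
      rfl

theorem bump_smooth (g : Bump) (hg : g.Valid) : ContDiff ℝ ∞ g.fn := by
  obtain ⟨P, R, h1, -, h3⟩ := bump_prof g hg
  have : g.fn = fun s => s ^ g.k * P (ratVal g.a * s - ratVal g.b) := funext h3
  rw [this]
  fun_prop

theorem bump_compact (g : Bump) (hg : g.Valid) : HasCompactSupport g.fn := by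
  obtain ⟨P, R, -, h2, h3⟩ := bump_prof g hg
  have ha : (ratVal g.a : ℝ) ≠ 0 := by exact_mod_cast hg.1
  have ha' : 0 < |(ratVal g.a : ℝ)| := abs_pos.2 ha
  refine HasCompactSupport.of_support_subset_isCompact
    (K := Metric.closedBall 0 ((R + |(ratVal g.b : ℝ)|) / |(ratVal g.a : ℝ)|))
    (isCompact_closedBall _ _) ?_
  intro s hs
  rw [mem_closedBall_zero_iff, Real.norm_eq_abs]
  by_contra hcon
  push Not at hcon
  apply hs
  rw [h3, h2, mul_zero]
  rw [div_lt_iff₀ ha', ← abs_mul] at hcon
  have h4 := abs_sub_abs_le_abs_sub ((ratVal g.a : ℝ) * s) (ratVal g.b)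
  rw [mul_comm] at hcon
  linarith

theorem periodize_smooth (g : Bump) (hg : g.Valid) : ContDiff ℝ ∞ (periodize g.fn) :=
  H854.per_contDiff (bump_compact g hg) (bump_smooth g hg)

theorem contDiff_list_prod {E α : Type} [NormedAddCommGroup E] [NormedSpace ℝ E] (L : List α)
    (F : α → E → ℝ) (h : ∀ a ∈ L, ContDiff ℝ ∞ (F a)) :
    ContDiff ℝ ∞ fun y => (L.map fun a => F a y).prod := by
  induction L with
  | nil => simpa using contDiff_const
  | cons a L ih =>
    simp only [List.map_cons, List.prod_cons]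
    exact (h a List.mem_cons_self).mul (ih fun b hb => h b (List.mem_cons_of_mem _ hb))

theorem contDiff_list_sum {E α : Type} [NormedAddCommGroup E] [NormedSpace ℝ E] (L : List α)
    (F : α → E → ℝ) (h : ∀ a ∈ L, ContDiff ℝ ∞ (F a)) :
    ContDiff ℝ ∞ fun y => (L.map fun a => F a y).sum := by
  induction L with
  | nil => simpa using contDiff_const
  | cons a L ih =>
    simp only [List.map_cons, List.sum_cons]
    exact (h a List.mem_cons_self).add (ih fun b hb => h b (List.mem_cons_of_mem _ hb))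

theorem term_smooth (ν : ℝ) (τ : Term) (hτ : τ.Valid) :
    ContDiff ℝ ∞ fun y : ℝ × (Fin 3 → ℝ) => τ.eval ν y.1 y.2 := by
  unfold Term.eval
  refine ContDiff.mul (ContDiff.mul contDiff_const ?_) ?_
  · refine contDiff_list_prod τ.time (fun (g : Bool × Bump) (y : ℝ × (Fin 3 → ℝ)) =>
      if g.1 then periodize g.2.fn y.1 else g.2.fn y.1) fun g hg => ?_
    by_cases h : g.1
    · simp only [h, if_true]
      exact (periodize_smooth g.2 (hτ.2.1 g hg)).comp contDiff_fst
    · simp only [h]
      exact (bump_smooth g.2 (hτ.2.1 g hg)).comp contDiff_fst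
  · refine contDiff_prod fun i _ => ?_
    refine contDiff_list_prod (τ.space i) (fun (g : Bump) (y : ℝ × (Fin 3 → ℝ)) =>
      periodize g.fn (y.2 i)) fun g hg => ?_
    exact (periodize_smooth g (hτ.2.2 i g hg)).comp
      ((contDiff_apply ℝ ℝ i).comp contDiff_snd)

/-- Admissible forces are smooth. -/
theorem force_contDiff (ν : ℝ) (L : Fin 3 → List Term) (hL : ∀ i, ∀ τ ∈ L i, τ.Valid) :
    ContDiff ℝ ∞ fun y : ℝ × (Fin 3 → ℝ) => force ν L y.1 y.2 := by
  rw [contDiff_pi]
  intro i
  exact contDiff_list_sum (L i) (fun (τ : Term) (y : ℝ × (Fin 3 → ℝ)) => τ.eval ν y.1 y.2)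
    fun τ hτ => term_smooth ν τ (hL i τ hτ)

/-- Admissible forces are functions on the torus. -/
theorem force_periodic (ν : ℝ) (L : Fin 3 → List Term) (t : ℝ) : IsPeriodic (force ν L t) := by
  intro x k
  have h : ∀ τ : Term, τ.eval ν t (fun i => x i + k i) = τ.eval ν t x := by
    intro τ
    unfold Term.eval
    congr 1
    refine Finset.prod_congr rfl fun i _ => ?_
    congr 1
    refine List.map_congr_left fun g _ => ?_
    exact H854.per_add_int g.fn (x i) (k i)
  unfold force
  simp only [h]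

end Vale.Agent.P113.H982
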